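import Vale.Agent.P024.H644.T10
import Vale.Agent.P024.H95.Nrm
import Vale.Agent.P024.H358.M3.G1
import Vale.Agent.P024.H114.Glue
import Vale.Agent.P024.ALL.Spec

/-!
P024, all number fields, block (TH): characters which are trivial on a decomposition group.
-/

namespace Vale.Agent.P024.H558.ALL

open scoped NumberField
open IsDedekindDomain NumberField Vale.Agent.P024 Vale.Agent.P024.M4

section

variable {E : Type*} [Field E] [CharZero E] [IsGalois ℚ E]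

/-- an open subgroup contains an open normal subgroup -/
theorem exists_openNormal (U : Subgroup (E ≃ₐ[ℚ] E)) (hU : IsOpen (U : Set (E ≃ₐ[ℚ] E))) :
    ∃ W : Subgroup (E ≃ₐ[ℚ] E), W.Normal ∧ IsOpen (W : Set (E ≃ₐ[ℚ] E)) ∧ W ≤ U := by
  obtain ⟨N, hN⟩ := ProfiniteGrp.exist_openNormalSubgroup_sub_open_nhds_of_one hU U.one_mem
  exact ⟨N.toSubgroup, N.isNormal', N.isOpen', hN⟩

/-- A continuous character of `V`, unramified outside `p` and trivial on a Frobenius element, is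
trivial on the decomposition group. -/
theorem kill_stab {p : ℕ} [Fact p.Prime] (V : Subgroup (E ≃ₐ[ℚ] E))
    (hVo : IsOpen (V : Set (E ≃ₐ[ℚ] E))) (θ : V →* ℤ_[p]ˣ) (hθ : Continuous θ)
    (hun : UnrOut p θ) (O : ValuationSubring E) (hO : O ≠ ⊤) {r : ℕ} (hr : r.Prime)
    (hpO : (p : E) ∉ O.nonunits) (hrO : (r : E) ∈ O.nonunits) (hOV : ∀ s, Stab O s → s ∈ V)
    (φ : E ≃ₐ[ℚ] E) (hφ : Stab O φ) (hφ' : ActsPow O φ r) (h1 : θ ⟨φ, hOV φ hφ⟩ = 1) (y : V)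
    (hy : Stab O (y : E ≃ₐ[ℚ] E)) : θ y = 1 := by
  have halg : Algebra.IsAlgebraic ℚ E := Normal.toIsAlgebraic
  refine redu_ext fun k => ?_
  rw [map_one]
  set U : Subgroup (E ≃ₐ[ℚ] E) := (((redu k).comp θ).ker).map V.subtype with hU
  have hUo : IsOpen (U : Set (E ≃ₐ[ℚ] E)) := by
    rw [hU, Subgroup.coe_map]
    refine hVo.isOpenMap_subtype_val _ ?_
    exact (M3G.isOpen_redu k).preimage hθ
  obtain ⟨W, hWn, hWo, hWU⟩ := exists_openNormal U hUo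
  obtain ⟨hfd, hfix⟩ := finiteDimensional_fixedField W hWo
  set K := IntermediateField.fixedField W with hK
  have hNF : NumberField K := NumberField.of_module_finite ℚ K
  have hbot : NumberField (⊥ : IntermediateField ℚ E) := NumberField.of_module_finite ℚ _
  have hstab : ∀ (g : E ≃ₐ[ℚ] E), ∀ y ∈ K, g y ∈ K := by
    intro g y hy
    rw [hK, IntermediateField.mem_fixedField_iff] at hy ⊢
    intro h hh
    have h1 := hy _ (hWn.conj_mem h hh g⁻¹)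
    rw [inv_inv] at h1
    have h2 : h (g y) = g ((g⁻¹ * h * g) y) := by
      rw [← AlgEquiv.mul_apply, ← AlgEquiv.mul_apply]
      congr 1
      group
    rw [h2, h1]
  obtain ⟨v, hv⟩ := exists_center (K := ℚ) O hO
  obtain ⟨u, hu⟩ := exists_center (K := (⊥ : IntermediateField ℚ E)) O hO
  have hrv : (r : 𝓞 ℚ) ∈ v.asIdeal := by
    rw [hv]
    simpa using hrO
  have hNu : Ideal.absNorm u.asIdeal = r := by
    rw [TR.absNorm_bot hv hu, H114.absNorm_rat v hr hrv]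
  obtain ⟨a, δ, hδ, hδK, hι⟩ := exists_decomp O hO ⊥ K bot_le u hu φ (y : E ≃ₐ[ℚ] E) hφ
    (by rwa [hNu]) hy (by
      intro x hx
      rw [IntermediateField.mem_bot] at hx
      obtain ⟨c, rfl⟩ := hx
      exact (y : E ≃ₐ[ℚ] E).commutes c) (hstab _) (hstab φ⁻¹)
  have hδU : δ ∈ U := by
    apply hWU
    rw [← hfix, IntermediateField.mem_fixingSubgroup_iff]
    exact hδK
  obtain ⟨δ', hδ', hδe⟩ := hδU
  have hιs : Stab O ((y : E ≃ₐ[ℚ] E) * (φ ^ a)⁻¹ * δ⁻¹) := (hy.mul (hφ.pow a).inv).mul hδ.inv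
  have h2 : θ ⟨_, hOV _ hιs⟩ = 1 := hun O hO hpO ⟨_, hOV _ hιs⟩ hιs hι
  have h3 : y = ⟨_, hOV _ hιs⟩ * (δ' * ⟨φ, hOV φ hφ⟩ ^ a) := by
    apply Subtype.ext
    have h4 : (δ' : E ≃ₐ[ℚ] E) = δ := hδe
    show (y : E ≃ₐ[ℚ] E) = (y : E ≃ₐ[ℚ] E) * (φ ^ a)⁻¹ * δ⁻¹ * ((δ' : E ≃ₐ[ℚ] E) * φ ^ a)
    rw [h4]
    group
  have h5 : redu k (θ δ') = 1 := hδ'
  rw [h3, map_mul θ, h2, one_mul, map_mul θ, map_pow θ, h1, one_pow, mul_one, h5]

end

end Vale.Agent.P024.H558.ALL
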