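import Vale.Agent.P024.H95.Nrm
import Vale.Agent.P024.H252.CC2
import Vale.Agent.P024.ALL.Spec

/-!
P024, all number fields, block (TH): the choice of the field.
-/

namespace Vale.Agent.P024.H558.ALL

open scoped NumberField
open IsDedekindDomain NumberField IntermediateField Vale.Agent.P024 Vale.Agent.P024.M4

section

variable {E : Type*} [Field E] [CharZero E]

theorem exists_prime_over (N : Type*) [Field N] [NumberField N] {l : ℕ} (hl : l.Prime) :
    ∃ P : HeightOneSpectrum (𝓞 N), (l : 𝓞 N) ∈ P.asIdeal := by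
  have hnu : ¬ IsUnit (l : 𝓞 N) := by
    intro hu
    have h1 : Ideal.absNorm (Ideal.span {(l : 𝓞 N)}) = 1 := by
      rw [Ideal.span_singleton_eq_top.2 hu, Ideal.absNorm_top]
    rw [Ideal.absNorm_span_natCast] at h1
    have h2 : Module.finrank ℤ (𝓞 N) ≠ 0 := by
      rw [NumberField.RingOfIntegers.rank]
      exact (Module.finrank_pos (R := ℚ) (M := N)).ne'
    have h3 := (Nat.pow_eq_one.1 h1).resolve_right h2
    exact hl.one_lt.ne' h3
  obtain ⟨I, hI, hle⟩ := exists_max_ideal_of_mem_nonunits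
    (show (l : 𝓞 N) ∈ nonunits (𝓞 N) from hnu)
  refine ⟨⟨I, hI.isPrime, ?_⟩, hle⟩
  rintro rfl
  exact hl.ne_zero (by exact_mod_cast (Ideal.mem_bot.1 hle))

/-- a square root of a prime number which does not lie in a number field -/
theorem exists_sqrt (hroot : ∀ x : E, ∃ y : E, y ^ 2 = x) (M : IntermediateField ℚ E)
    [NumberField M] : ∃ (q : ℕ) (s : E), q.Prime ∧ s ^ 2 = (q : E) ∧ s ∉ M := by
  obtain ⟨q, hq, hqT⟩ := Nat.infinite_setOfPred_prime.exists_notMem_finite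
    ((finite_ramified M).image resChar)
  obtain ⟨s, hs⟩ := hroot (q : E)
  refine ⟨q, s, hq, hs, fun hsM => hqT ?_⟩
  obtain ⟨w, hw⟩ := exists_prime_over M hq
  refine ⟨w, ⟨q, hq, hw, ?_⟩, prime_mem_unique w (resChar_spec w).1 hq (resChar_spec w).2.1 hw⟩
  intro hval
  have h1 : (⟨s, hsM⟩ : M) ^ 2 = (q : M) := Subtype.ext (by
    show s ^ 2 = ((q : M) : E)
    rw [hs]
    simp)
  have h0 : (⟨s, hsM⟩ : M) ≠ 0 := by
    intro h
    rw [h, zero_pow two_ne_zero] at h1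
    exact hq.ne_zero (by exact_mod_cast h1.symm)
  have h2 : w.valuation M (⟨s, hsM⟩ : M) ≠ 0 := (Valuation.ne_zero_iff _).mpr h0
  rw [← h1, map_pow, ← WithZero.exp_log h2, ← WithZero.exp_nsmul] at hval
  have h3 := WithZero.exp_injective hval
  rw [two_nsmul] at h3
  omega

theorem mem_fix_adjoin (s : E) (g : E ≃ₐ[ℚ] E) : g ∈ ℚ⟮s⟯.fixingSubgroup ↔ g s = s := by
  constructor
  · intro h
    exact (IntermediateField.mem_fixingSubgroup_iff _ _).1 h s (mem_adjoin_simple_self ℚ s)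
  · intro h
    have h1 : Subgroup.zpowers g ≤ ℚ⟮s⟯.fixingSubgroup := by
      rw [← IntermediateField.le_iff_le, adjoin_simple_le_iff]
      rintro ⟨m, hm⟩
      obtain ⟨k, hk⟩ := Subgroup.mem_zpowers_iff.1 hm
      show m s = s
      have h2 : g ∈ MulAction.stabilizer (E ≃ₐ[ℚ] E) s := h
      have h3 := Subgroup.zpow_mem _ h2 k
      rw [hk] at h3
      exact h3
    exact h1 (Subgroup.mem_zpowers g)

/-- The choice of the field. -/
theorem exists_field [IsGalois ℚ E] (hE : SolvablyClosed E) (C : Finset (E ≃ₐ[ℚ] E))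
    (hC : ∀ c ∈ C, c ≠ 1) :
    ∃ (V : Subgroup (E ≃ₐ[ℚ] E)) (k τ : E ≃ₐ[ℚ] E), V.Normal ∧
      IsOpen (V : Set (E ≃ₐ[ℚ] E)) ∧ IsCC k ∧ τ * τ ∈ V ∧ (∀ g, g * τ * g⁻¹ * τ⁻¹ ∈ V) ∧
      τ ∉ V ∧ k ∉ V ∧ τ * k ∉ V ∧ ∀ c ∈ C, c ∉ V ∧ c * τ ∉ V ∧ c * τ * k ∉ V := by
  classical
  have halg : Algebra.IsAlgebraic ℚ E := Normal.toIsAlgebraic
  obtain ⟨φ⟩ := H252.exists_emb (E := E)
  obtain ⟨k, hk⟩ := H252.exists_conj φ
  have hkc : IsCC k := ⟨φ, hk⟩
  obtain ⟨hkk, hk1⟩ := H252.cc_sq hE hkc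
  obtain ⟨V₀, hV₀n, hV₀o, hV₀⟩ := H95.exists_normal_finset
    (((C ∪ {k}) ∪ C.image fun c => c * k).erase 1) (Finset.notMem_erase _ _)
  have hcV : ∀ c ∈ C, c ∉ V₀ := fun c hc => hV₀ c (Finset.mem_erase.2 ⟨hC c hc, by simp [hc]⟩)
  have hkV : k ∉ V₀ := hV₀ k (Finset.mem_erase.2 ⟨hk1, by simp⟩)
  have hckV : ∀ c ∈ C, c * k ∈ V₀ → c = k := by
    intro c hc h
    by_contra hne
    refine hV₀ (c * k) (Finset.mem_erase.2 ⟨fun h1 => hne ?_, ?_⟩) h
    · rw [← mul_one c, ← hkk, ← mul_assoc, h1, one_mul]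
    · exact Finset.mem_union_right _ (Finset.mem_image_of_mem _ hc)
  obtain ⟨hfd, hfix⟩ := finiteDimensional_fixedField V₀ hV₀o
  have hNF : NumberField (IntermediateField.fixedField V₀) := NumberField.of_module_finite ℚ _
  obtain ⟨q, s, hq, hs, hsM⟩ := exists_sqrt (fun x => hE.exists_root 2 (by norm_num) x)
    (IntermediateField.fixedField V₀)
  have hs0 : s ≠ 0 := by
    rintro rfl
    rw [zero_pow two_ne_zero] at hs
    exact hq.ne_zero (by exact_mod_cast hs.symm)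
  have hss : s ≠ -s := by
    intro h
    have h1 : (2 : E) * s = 0 := by linear_combination h
    rcases mul_eq_zero.1 h1 with h2 | h2
    · exact two_ne_zero h2
    · exact hs0 h2
  have hpm : ∀ g : E ≃ₐ[ℚ] E, g s = s ∨ g s = -s := by
    intro g
    have h1 : (g s) ^ 2 = s ^ 2 := by rw [← map_pow, hs, map_natCast]
    exact sq_eq_sq_iff_eq_or_eq_neg.1 h1
  have hks : k s = s := by
    apply φ.injective
    rw [hk]
    have h1 : (φ s) ^ 2 = (q : ℂ) := by rw [← map_pow, hs, map_natCast]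
    have h2 : ((starRingEnd ℂ) (φ s)) ^ 2 = (φ s) ^ 2 := by
      rw [← map_pow, h1, map_natCast]
    rcases sq_eq_sq_iff_eq_or_eq_neg.1 h2 with h3 | h3
    · exact h3
    · exfalso
      have h4 : (φ s).re = 0 := by
        have := congrArg Complex.re h3
        rw [Complex.conj_re, Complex.neg_re] at this
        linarith
      have h5 := congrArg Complex.re h1
      rw [sq, Complex.mul_re, h4, Complex.natCast_re] at h5
      have h6 : (0 : ℝ) < q := by exact_mod_cast hq.pos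
      nlinarith [sq_nonneg (φ s).im]
  obtain ⟨τ, hτV, hτs'⟩ : ∃ τ ∈ V₀, τ s ≠ s := by
    by_contra hcon
    push Not at hcon
    apply hsM
    rw [IntermediateField.mem_fixedField_iff]
    exact hcon
  have hτs : τ s = -s := (hpm τ).resolve_left hτs'
  let V : Subgroup (E ≃ₐ[ℚ] E) := V₀ ⊓ ℚ⟮s⟯.fixingSubgroup
  have hV : ∀ g, g ∈ V ↔ g ∈ V₀ ∧ g s = s := fun g => by
    rw [Subgroup.mem_inf, mem_fix_adjoin]
  have hVn : V.Normal := by
    refine ⟨fun v hv g => ?_⟩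
    rw [hV] at hv ⊢
    refine ⟨hV₀n.conj_mem v hv.1 g, ?_⟩
    have h1 : g⁻¹ s = s ∨ g⁻¹ s = -s := hpm g⁻¹
    rw [AlgEquiv.mul_apply, AlgEquiv.mul_apply]
    have h2 : g (g⁻¹ s) = s := by rw [← AlgEquiv.mul_apply, mul_inv_cancel, AlgEquiv.one_apply]
    rcases h1 with h1 | h1
    · rw [h1] at h2 ⊢
      rw [hv.2, h2]
    · rw [h1] at h2 ⊢
      rw [map_neg v, hv.2, h2]
  have hVo : IsOpen (V : Set (E ≃ₐ[ℚ] E)) := by
    have hfds : FiniteDimensional ℚ ℚ⟮s⟯ :=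
      IntermediateField.adjoin.finiteDimensional (Algebra.IsIntegral.isIntegral s)
    exact hV₀o.inter (IntermediateField.fixingSubgroup_isOpen _)
  refine ⟨V, k, τ, hVn, hVo, hkc, ?_, ?_, ?_, ?_, ?_, ?_⟩
  · rw [hV]
    refine ⟨mul_mem hτV hτV, ?_⟩
    rw [AlgEquiv.mul_apply, hτs, map_neg, hτs, neg_neg]
  · intro g
    rw [hV]
    refine ⟨mul_mem (hV₀n.conj_mem τ hτV g) (inv_mem hτV), ?_⟩
    have h1 : τ⁻¹ s = -s := by
      have h2 : τ⁻¹ (τ s) = s := by
        rw [← AlgEquiv.mul_apply, inv_mul_cancel, AlgEquiv.one_apply]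
      rw [hτs, map_neg] at h2
      exact neg_eq_iff_eq_neg.1 h2
    have h2 : g (g⁻¹ s) = s := by rw [← AlgEquiv.mul_apply, mul_inv_cancel, AlgEquiv.one_apply]
    rw [AlgEquiv.mul_apply, h1, AlgEquiv.mul_apply, AlgEquiv.mul_apply, map_neg g⁻¹, map_neg τ]
    rcases hpm g⁻¹ with h3 | h3
    · rw [h3] at h2 ⊢
      rw [hτs, neg_neg, h2]
    · rw [h3] at h2 ⊢
      rw [map_neg τ, hτs, neg_neg, map_neg g]
      rw [map_neg g] at h2
      exact h2
  · intro h
    exact hτs' ((hV τ).1 h).2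
  · intro h
    exact hkV ((hV k).1 h).1
  · intro h
    have h1 := mul_mem (inv_mem hτV) ((hV _).1 h).1
    rw [← mul_assoc, inv_mul_cancel, one_mul] at h1
    exact hkV h1
  · intro c hc
    refine ⟨fun h => hcV c hc ((hV c).1 h).1, fun h => ?_, fun h => ?_⟩
    · have h1 := mul_mem ((hV _).1 h).1 (inv_mem hτV)
      rw [mul_assoc, mul_inv_cancel, mul_one] at h1
      exact hcV c hc h1
    · have h1 : c * k ∈ V₀ := by
        have h2 := mul_mem ((hV _).1 h).1 (hV₀n.conj_mem _ (inv_mem hτV) k⁻¹)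
        have h3 : c * τ * k * (k⁻¹ * τ⁻¹ * k⁻¹⁻¹) = c * k := by group
        rwa [h3] at h2
      have h2 := hckV c hc h1
      have h3 := ((hV _).1 h).2
      rw [h2, AlgEquiv.mul_apply, AlgEquiv.mul_apply, hks, hτs, map_neg, hks] at h3
      exact hss h3.symm

end

end Vale.Agent.P024.H558.ALL
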