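import Vale.Agent.P024.H558.ALL.Alg
import Vale.Agent.P024.H558.ALL.Fld
import Vale.Agent.P024.H558.ALL.Dec
import Vale.Agent.P024.H644.T11

/-!
P024, all number fields, block (TH).
-/

namespace Vale.Agent.P024.H558.ALL

open scoped NumberField
open IsDedekindDomain NumberField Vale.Agent.P024 Vale.Agent.P024.M4

/-- one finite set for finitely many conditions -/
theorem unif {S : Type*} (C : Finset S) (P : S → ℕ → Prop)
    (h : ∀ c ∈ C, ∃ B : Set ℕ, B.Finite ∧ ∀ p, p ∉ B → P c p) :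
    ∃ B : Set ℕ, B.Finite ∧ ∀ p, p ∉ B → ∀ c ∈ C, P c p := by
  choose! B hB using h
  refine ⟨⋃ c ∈ (C : Set S), B c, C.finite_toSet.biUnion fun c hc => (hB c hc).1, ?_⟩
  intro p hp c hc
  refine (hB c hc).2 p fun h => hp ?_
  exact Set.mem_biUnion (show c ∈ (C : Set S) from hc) h

section

variable {E A : Type*} [Field E] [CharZero E] [CommGroup A] {p : ℕ}
  {V : Subgroup (E ≃ₐ[ℚ] E)} [hV : V.Normal]

theorem cont_act [TopologicalSpace A] (g : E ≃ₐ[ℚ] E) (θ : V →* A) (hθ : Continuous θ) :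
    Continuous (H566.act g θ) := by
  refine hθ.comp ?_
  refine Continuous.subtype_mk (f := fun y : V => g⁻¹ * (y : E ≃ₐ[ℚ] E) * g⁻¹⁻¹) ?_ _
  fun_prop

theorem unr_act (g : E ≃ₐ[ℚ] E) (θ : V →* A) (hθ : UnrOut p θ) :
    UnrOut p (H566.act g θ) := by
  intro O hO hpO t ht ht1
  rw [H566.act_apply]
  refine hθ (conjO O g⁻¹) (conjO_ne_top hO g⁻¹) ?_ _ ?_ ?_
  · rw [nonunits_conjO, inv_inv, map_natCast]
    exact hpO
  · intro x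
    rw [MulAut.conjNormal_apply, mem_conjO, mem_conjO, inv_inv, AlgEquiv.mul_apply,
      AlgEquiv.mul_apply, ← AlgEquiv.mul_apply g, mul_inv_cancel, AlgEquiv.one_apply]
    exact ht (g x)
  · intro x hx
    rw [mem_conjO, inv_inv] at hx
    rw [MulAut.conjNormal_apply, nonunits_conjO, inv_inv, pow_one, map_sub, AlgEquiv.mul_apply,
      AlgEquiv.mul_apply, ← AlgEquiv.mul_apply g, mul_inv_cancel, AlgEquiv.one_apply]
    have h1 := ht1 (g x) hx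
    rwa [pow_one] at h1

end

section CombA

variable {p : ℕ} [hp : Fact p.Prime]

/-- The combination of two characters in different eigenspaces. -/
theorem combA {S A : Type*} [CommGroup A] [Group S] {V : Subgroup S} [hV : V.Normal] (c τ : S)
    (hcτ : ((c * τ : S) : S ⧸ V) = ((τ * c : S) : S ⧸ V)) (θ₁ θ₂ : V →* A)
    (h1 : H566.act τ θ₁ = θ₁) (h2 : H566.act τ θ₂ = θ₂⁻¹)
    (hi1 : ¬ ∃ m : ℕ, 0 < m ∧ ∀ y : V, (H566.act c θ₁ y / θ₁ y) ^ m = 1)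
    (hi2 : ¬ ∃ m : ℕ, 0 < m ∧ ∀ y : V, (H566.act c θ₂ y / θ₂ y) ^ m = 1)
    (L : A →* Multiplicative ℤ_[p]) {N : ℕ} (hN : 0 < N) (hL : ∀ u, L u = 1 → u ^ N = 1)
    (e : Multiplicative ℤ_[p] →* ℤ_[p]ˣ) (he : Function.Injective e) (φ : V) :
    ∃ (a b : ℤ_[p]) (θ : V →* ℤ_[p]ˣ), (∀ y, θ y = e (Multiplicative.ofAdd
      (a * Multiplicative.toAdd (L (θ₁ y)) + b * Multiplicative.toAdd (L (θ₂ y))))) ∧
      θ φ = 1 ∧ ¬ ∃ m : ℕ, 0 < m ∧ ∀ y : V, (H566.act c θ y / θ y) ^ m = 1 := by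
  set ℓ₁ : V → ℤ_[p] := fun y => Multiplicative.toAdd (L (θ₁ y)) with hℓ₁
  set ℓ₂ : V → ℤ_[p] := fun y => Multiplicative.toAdd (L (θ₂ y)) with hℓ₂
  have hm1 : ∀ x y, ℓ₁ (x * y) = ℓ₁ x + ℓ₁ y := fun x y => by
    simp only [hℓ₁, map_mul, toAdd_mul]
  have hm2 : ∀ x y, ℓ₂ (x * y) = ℓ₂ x + ℓ₂ y := fun x y => by
    simp only [hℓ₂, map_mul, toAdd_mul]
  obtain ⟨a, b, hab, hne⟩ : ∃ a b : ℤ_[p], a * ℓ₁ φ + b * ℓ₂ φ = 0 ∧ ¬ (a = 0 ∧ b = 0) := by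
    by_cases h : ℓ₁ φ = 0 ∧ ℓ₂ φ = 0
    · refine ⟨1, 0, by rw [h.1, h.2]; ring, fun h' => one_ne_zero h'.1⟩
    · refine ⟨ℓ₂ φ, -ℓ₁ φ, by ring, fun h' => h ⟨neg_eq_zero.1 h'.2, h'.1⟩⟩
  let Λ : V →* Multiplicative ℤ_[p] :=
    { toFun := fun y => Multiplicative.ofAdd (a * ℓ₁ y + b * ℓ₂ y)
      map_one' := by
        have e1 : ℓ₁ 1 = 0 := by simpa using hm1 1 1
        have e2 : ℓ₂ 1 = 0 := by simpa using hm2 1 1
        rw [e1, e2, mul_zero, mul_zero, add_zero, ofAdd_zero]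
      map_mul' := fun x y => by
        rw [hm1, hm2, ← ofAdd_add]
        congr 1
        ring }
  have hΛ : ∀ y, e.comp Λ y = e (Multiplicative.ofAdd (a * ℓ₁ y + b * ℓ₂ y)) := fun y => rfl
  refine ⟨a, b, e.comp Λ, hΛ, ?_, ?_⟩
  · rw [hΛ, hab, ofAdd_zero, map_one]
  rintro ⟨m, hm, key⟩
  -- the conjugation by `g⁻¹`
  let cg : S → V → V := fun g y => MulAut.conjNormal g⁻¹ y
  have hact : ∀ (g : S) (ψ : V →* A) (y : V), H566.act g ψ y = ψ (cg g y) := fun g ψ y => rfl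
  have hact' : ∀ (g : S) (ψ : V →* ℤ_[p]ˣ) (y : V), H566.act g ψ y = ψ (cg g y) :=
    fun g ψ y => rfl
  have hD : ∀ y, a * (ℓ₁ (cg c y) - ℓ₁ y) + b * (ℓ₂ (cg c y) - ℓ₂ y) = 0 := by
    intro y
    have h3 := key y
    rw [hact', hΛ, hΛ, ← map_div, ← ofAdd_sub] at h3
    have h4 := e_pow_eq_one e he _ hm h3
    rw [← h4]
    ring
  have ht1 : ∀ y, ℓ₁ (cg τ y) = ℓ₁ y := by
    intro y
    have h3 := DFunLike.congr_fun h1 y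
    rw [hact] at h3
    simp only [hℓ₁, h3]
  have ht2 : ∀ y, ℓ₂ (cg τ y) = -ℓ₂ y := by
    intro y
    have h3 := DFunLike.congr_fun h2 y
    rw [hact, MonoidHom.inv_apply] at h3
    simp only [hℓ₂, h3, map_inv, toAdd_inv]
  have htc1 : ∀ y, ℓ₁ (cg c (cg τ y)) = ℓ₁ (cg c y) := by
    intro y
    have h3 : H566.act (τ * c) θ₁ = H566.act c θ₁ := by
      rw [← H566.act_congr hcτ, H566.act_mul, h1]
    rw [H566.act_mul] at h3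
    have h4 := DFunLike.congr_fun h3 y
    rw [hact, hact, hact] at h4
    simp only [hℓ₁, h4]
  have htc2 : ∀ y, ℓ₂ (cg c (cg τ y)) = -ℓ₂ (cg c y) := by
    intro y
    have h3 : H566.act (τ * c) θ₂ = (H566.act c θ₂)⁻¹ := by
      rw [← H566.act_congr hcτ, H566.act_mul, h2]
      rfl
    rw [H566.act_mul] at h3
    have h4 := DFunLike.congr_fun h3 y
    rw [MonoidHom.inv_apply, hact, hact, hact] at h4
    simp only [hℓ₂, h4, map_inv, toAdd_inv]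
  have h20 : (2 : ℤ_[p]) ≠ 0 := two_ne_zero
  have hA : ∀ y, a * (ℓ₁ (cg c y) - ℓ₁ y) = 0 := by
    intro y
    have h3 := hD y
    have h4 := hD (cg τ y)
    rw [ht1, ht2, htc1, htc2] at h4
    have h5 : 2 * (a * (ℓ₁ (cg c y) - ℓ₁ y)) = 0 := by linear_combination h3 + h4
    exact (mul_eq_zero.1 h5).resolve_left h20
  have hB : ∀ y, b * (ℓ₂ (cg c y) - ℓ₂ y) = 0 := by
    intro y
    have h3 := hD y
    rw [hA y, zero_add] at h3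
    exact h3
  have hfin : ∀ (ψ : V →* A), (¬ ∃ m : ℕ, 0 < m ∧ ∀ y : V, (H566.act c ψ y / ψ y) ^ m = 1) →
      ∃ y, Multiplicative.toAdd (L (ψ (cg c y))) - Multiplicative.toAdd (L (ψ y)) ≠ 0 := by
    intro ψ hψ
    by_contra hcon
    push Not at hcon
    apply hψ
    refine ⟨N, hN, fun y => hL _ ?_⟩
    rw [map_div, hact]
    exact Multiplicative.toAdd.injective (hcon y)
  apply hne
  constructor
  · obtain ⟨y, hy⟩ := hfin θ₁ hi1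
    exact (mul_eq_zero.1 (hA y)).resolve_right hy
  · obtain ⟨y, hy⟩ := hfin θ₂ hi2
    exact (mul_eq_zero.1 (hB y)).resolve_right hy

end CombA


/-- Block (TH). -/
theorem propTH.{u} : Vale.Agent.P024.ALL.PropTH.{u} := by
  intro E _ _ _ hE C hC
  have halg : Algebra.IsAlgebraic ℚ E := Normal.toIsAlgebraic
  obtain ⟨V, k, τ, hVn, hVo, hk, hττ, hcomm, hτV, hkV, hτkV, hCV⟩ := exists_field hE C hC
  refine ⟨V, hVn, hVo, ?_⟩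
  have hq : ∀ g : E ≃ₐ[ℚ] E, g ∉ V → ((g : E ≃ₐ[ℚ] E) : (E ≃ₐ[ℚ] E) ⧸ V) ≠ 1 := fun g hg h =>
    hg ((QuotientGroup.eq_one_iff g).1 h)
  obtain ⟨B₁, hB₁, hT₁⟩ := unif C (fun c p => ∀ [Fact p.Prime],
    ∃ θ : V →* Multiplicative ℤ_[p], Continuous θ ∧ UnrOut p θ ∧ ¬ ∃ m : ℕ, 0 < m ∧ ∀ y : V,
      act ((MonoidAlgebra.of ℤ _ (c : (E ≃ₐ[ℚ] E) ⧸ V) - 1) *
        (1 + MonoidAlgebra.of ℤ _ (τ : (E ≃ₐ[ℚ] E) ⧸ V))) θ y ^ m = 1) (fun c hc => by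
    obtain ⟨h1, h2, h3⟩ := hCV c hc
    obtain ⟨B, hB, h⟩ := T3.propT3A hE V hVo _ k hk (ring_ne₁ (c : (E ≃ₐ[ℚ] E) ⧸ V) τ k (hq c h1)
      (hq (c * τ) h2) (hq k hkV) (hq (τ * k) hτkV) (hq τ hτV))
    exact ⟨B, hB, fun p hp _ => h p hp⟩)
  obtain ⟨B₂, hB₂, hT₂⟩ := unif C (fun c p => ∀ [Fact p.Prime],
    ∃ θ : V →* Multiplicative ℤ_[p], Continuous θ ∧ UnrOut p θ ∧ ¬ ∃ m : ℕ, 0 < m ∧ ∀ y : V,
      act ((MonoidAlgebra.of ℤ _ (c : (E ≃ₐ[ℚ] E) ⧸ V) - 1) *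
        (1 - MonoidAlgebra.of ℤ _ (τ : (E ≃ₐ[ℚ] E) ⧸ V))) θ y ^ m = 1) (fun c hc => by
    obtain ⟨h1, h2, h3⟩ := hCV c hc
    obtain ⟨B, hB, h⟩ := T3.propT3A hE V hVo _ k hk (ring_ne₂ (c : (E ≃ₐ[ℚ] E) ⧸ V) τ k (hq c h1)
      (hq (c * τ) h2) (hq k hkV) (hq (τ * k) hτkV) (hq τ hτV) (hq (c * τ * k) h3))
    exact ⟨B, hB, fun p hp _ => h p hp⟩)
  refine ⟨B₁ ∪ B₂, hB₁.union hB₂, ?_⟩
  intro p hp hpB r₂ hr₂ hr₂p O₂ hO₂ hrO hOV c hc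
  simp only [Set.mem_union, not_or] at hpB
  obtain ⟨hpB₁, hpB₂⟩ := hpB
  obtain ⟨θ₁', hc₁, hu₁, hi₁⟩ := hT₁ p hpB₁ c hc
  obtain ⟨θ₂', hc₂, hu₂, hi₂⟩ := hT₂ p hpB₂ c hc
  obtain ⟨e, hec, hei⟩ := T3.exists_exp_padic (p := p)
  have hpO : (p : E) ∉ O₂.nonunits :=
    not_mem_nonunits_of_coprime O₂ ((Nat.coprime_primes hr₂ hp.out).2 hr₂p) hrO
  -- a Frobenius element
  obtain ⟨v, hv⟩ := exists_center (K := ℚ) O₂ hO₂
  have hrv : (r₂ : 𝓞 ℚ) ∈ v.asIdeal := by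
    rw [hv]
    simpa using hrO
  obtain ⟨φ, hφ, hφ'⟩ := exists_frob (K := ℚ) O₂ hO₂ v hv
  have hcard : Nat.card (𝓞 ℚ ⧸ v.asIdeal) = r₂ := by
    rw [← H114.absNorm_rat v hr₂ hrv, Ideal.absNorm_apply]; rfl
  rw [hcard] at hφ'
  have hcτ : ((c * τ : E ≃ₐ[ℚ] E) : (E ≃ₐ[ℚ] E) ⧸ V) = ((τ * c : E ≃ₐ[ℚ] E) : (E ≃ₐ[ℚ] E) ⧸ V) := by
    rw [QuotientGroup.eq]
    have h1 := hVn.conj_mem _ (hcomm c⁻¹) τ⁻¹
    have h2 : τ⁻¹ * (c⁻¹ * τ * c⁻¹⁻¹ * τ⁻¹) * τ⁻¹⁻¹ = (c * τ)⁻¹ * (τ * c) := by group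
    rwa [h2] at h1
  have ha₁ : H566.act τ (θ₁' * H566.act τ θ₁') = θ₁' * H566.act τ θ₁' := by
    rw [H566.act_mul_right, ← H566.act_mul, H566.act_mem hττ, mul_comm]
  have ha₂ : H566.act τ (θ₂' / H566.act τ θ₂') = (θ₂' / H566.act τ θ₂')⁻¹ := by
    have h1 : H566.act τ (θ₂' / H566.act τ θ₂') = H566.act τ θ₂' / H566.act τ (H566.act τ θ₂') := rfl
    rw [h1, ← H566.act_mul, H566.act_mem hττ]
    refine MonoidHom.ext fun y => ?_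
    rw [MonoidHom.inv_apply, MonoidHom.div_apply, MonoidHom.div_apply, inv_div]
  obtain ⟨a, b, θ, hθ, hθφ, hθi⟩ := combA c τ hcτ _ _ ha₁ ha₂
    (fun ⟨m, hm, h⟩ => hi₁ ⟨m, hm, fun y => by rw [m4_add]; exact h y⟩)
    (fun ⟨m, hm, h⟩ => hi₂ ⟨m, hm, fun y => by rw [m4_sub]; exact h y⟩)
    (MonoidHom.id _) one_pos (fun u hu => by rw [pow_one]; exact hu) e hei ⟨φ, hOV φ hφ⟩
  have hcont₁ : Continuous (θ₁' * H566.act τ θ₁') := hc₁.mul (cont_act τ θ₁' hc₁)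
  have hcont₂ : Continuous (θ₂' / H566.act τ θ₂') := hc₂.div' (cont_act τ θ₂' hc₂)
  have hcont : Continuous θ := by
    have h1 : (θ : V → ℤ_[p]ˣ) = fun y => e (Multiplicative.ofAdd
      (a * Multiplicative.toAdd ((θ₁' * H566.act τ θ₁') y) +
        b * Multiplicative.toAdd ((θ₂' / H566.act τ θ₂') y))) := funext hθ
    rw [h1]
    refine hec.comp (continuous_ofAdd.comp ?_)
    exact (continuous_const.mul (continuous_toAdd.comp hcont₁)).add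
      (continuous_const.mul (continuous_toAdd.comp hcont₂))
  have hun : UnrOut p θ := by
    intro O hO hpO' t ht ht1
    rw [hθ, MonoidHom.mul_apply, MonoidHom.div_apply, hu₁ O hO hpO' t ht ht1,
      hu₂ O hO hpO' t ht ht1, unr_act τ θ₁' hu₁ O hO hpO' t ht ht1,
      unr_act τ θ₂' hu₂ O hO hpO' t ht ht1, mul_one, div_one, map_one, toAdd_one, mul_zero,
      mul_zero, add_zero, ofAdd_zero, map_one]
  refine ⟨θ, hcont, ?_, ?_⟩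
  · exact kill_stab V hVo θ hcont hun O₂ hO₂ hr₂ hpO hrO hOV φ hφ hφ' hθφ
  · rintro ⟨m, hm, h⟩
    refine hθi ⟨m, hm, fun y => ?_⟩
    rw [← m4_sub_one]
    exact h y

end Vale.Agent.P024.H558.ALL
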