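import Vale.Agent.P024.H566.Rel2
import Vale.Agent.P024.H644.T10
import Vale.Agent.P024.ALL.Spec

/-!
P024, all number fields, block (TH): the group ring and the combination of two characters.
-/

namespace Vale.Agent.P024.H558.ALL

open scoped NumberField
open IsDedekindDomain NumberField Vale.Agent.P024 Vale.Agent.P024.M4

section GroupRing

variable {G : Type*} [Group G]

theorem coeff_of [DecidableEq G] (g h : G) :
    (MonoidAlgebra.of ℤ G g).coeff h = if g = h then 1 else 0 := by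
  rw [MonoidAlgebra.of_apply, MonoidAlgebra.coeff_single, Finsupp.single_apply]

theorem ring_ne₁ (c τ k : G) (hc : c ≠ 1) (hcτ : c * τ ≠ 1) (hk : k ≠ 1) (hτk : τ * k ≠ 1)
    (hτ : τ ≠ 1) :
    ((MonoidAlgebra.of ℤ G c - 1) * (1 + MonoidAlgebra.of ℤ G τ)) *
      (1 - MonoidAlgebra.of ℤ G k) ≠ 0 := by
  classical
  intro h0
  have e1 : ((MonoidAlgebra.of ℤ G c - 1) * (1 + MonoidAlgebra.of ℤ G τ)) *
      (1 - MonoidAlgebra.of ℤ G k) = MonoidAlgebra.of ℤ G c + MonoidAlgebra.of ℤ G (c * τ) -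
        MonoidAlgebra.of ℤ G 1 - MonoidAlgebra.of ℤ G τ - MonoidAlgebra.of ℤ G (c * k) -
        MonoidAlgebra.of ℤ G (c * τ * k) + MonoidAlgebra.of ℤ G k +
        MonoidAlgebra.of ℤ G (τ * k) := by
    simp only [map_mul, map_one]
    noncomm_ring
  rw [e1] at h0
  have h1 := congrArg (fun Z : MonoidAlgebra ℤ G => Z.coeff 1) h0
  simp only [MonoidAlgebra.coeff_add, MonoidAlgebra.coeff_sub, Finsupp.add_apply,
    Finsupp.sub_apply, coeff_of, if_neg hc, if_neg hcτ, if_neg hk, if_neg hτk, if_neg hτ,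
    if_true, MonoidAlgebra.coeff_zero, Finsupp.coe_zero, Pi.zero_apply] at h1
  split_ifs at h1 <;> omega

theorem ring_ne₂ (c τ k : G) (hc : c ≠ 1) (hcτ : c * τ ≠ 1) (hk : k ≠ 1) (hτk : τ * k ≠ 1)
    (hτ : τ ≠ 1) (hcτk : c * τ * k ≠ 1) :
    ((MonoidAlgebra.of ℤ G c - 1) * (1 - MonoidAlgebra.of ℤ G τ)) *
      (1 - MonoidAlgebra.of ℤ G k) ≠ 0 := by
  classical
  intro h0
  have e1 : ((MonoidAlgebra.of ℤ G c - 1) * (1 - MonoidAlgebra.of ℤ G τ)) *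
      (1 - MonoidAlgebra.of ℤ G k) = MonoidAlgebra.of ℤ G c - MonoidAlgebra.of ℤ G (c * τ) -
        MonoidAlgebra.of ℤ G 1 + MonoidAlgebra.of ℤ G τ - MonoidAlgebra.of ℤ G (c * k) +
        MonoidAlgebra.of ℤ G (c * τ * k) + MonoidAlgebra.of ℤ G k -
        MonoidAlgebra.of ℤ G (τ * k) := by
    simp only [map_mul, map_one]
    noncomm_ring
  rw [e1] at h0
  have h1 := congrArg (fun Z : MonoidAlgebra ℤ G => Z.coeff 1) h0
  simp only [MonoidAlgebra.coeff_add, MonoidAlgebra.coeff_sub, Finsupp.add_apply,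
    Finsupp.sub_apply, coeff_of, if_neg hc, if_neg hcτ, if_neg hk, if_neg hτk, if_neg hτ,
    if_neg hcτk, if_true, MonoidAlgebra.coeff_zero, Finsupp.coe_zero, Pi.zero_apply] at h1
  split_ifs at h1 <;> omega

end GroupRing

section Act

variable {S A : Type*} [Group S] [CommGroup A] {V : Subgroup S} [hV : V.Normal]

theorem m4_sub_one (c : S) (θ : V →* A) (y : V) :
    M4.act (MonoidAlgebra.of ℤ _ (c : S ⧸ V) - 1) θ y = H566.act c θ y / θ y := by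
  apply Additive.ofMul.injective
  rw [← H566.actHom_apply, map_sub, H566.actHom_of]
  have h1 : (1 : MonoidAlgebra ℤ (S ⧸ V)) = MonoidAlgebra.of ℤ _ ((1 : S) : S ⧸ V) := by
    rw [QuotientGroup.mk_one, map_one]
  rw [h1, H566.actHom_of, H566.act_one]
  rfl

theorem m4_add (c τ : S) (θ : V →* A) (y : V) :
    M4.act ((MonoidAlgebra.of ℤ _ (c : S ⧸ V) - 1) * (1 + MonoidAlgebra.of ℤ _ (τ : S ⧸ V))) θ y =
      H566.act c (θ * H566.act τ θ) y / (θ * H566.act τ θ) y := by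
  have e1 : (MonoidAlgebra.of ℤ _ (c : S ⧸ V) - 1) * (1 + MonoidAlgebra.of ℤ _ (τ : S ⧸ V)) =
      MonoidAlgebra.of ℤ _ (c : S ⧸ V) + MonoidAlgebra.of ℤ _ ((c * τ : S) : S ⧸ V) -
        MonoidAlgebra.of ℤ _ ((1 : S) : S ⧸ V) - MonoidAlgebra.of ℤ _ (τ : S ⧸ V) := by
    rw [QuotientGroup.mk_mul, QuotientGroup.mk_one, map_mul, map_one]
    noncomm_ring
  apply Additive.ofMul.injective
  rw [e1, ← H566.actHom_apply, map_sub, map_sub, map_add, H566.actHom_of, H566.actHom_of,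
    H566.actHom_of, H566.actHom_of, H566.act_one, H566.act_mul, H566.act_mul_right,
    MonoidHom.mul_apply, MonoidHom.mul_apply, ofMul_div, ofMul_mul, ofMul_mul]
  abel

theorem m4_sub (c τ : S) (θ : V →* A) (y : V) :
    M4.act ((MonoidAlgebra.of ℤ _ (c : S ⧸ V) - 1) * (1 - MonoidAlgebra.of ℤ _ (τ : S ⧸ V))) θ y =
      H566.act c (θ / H566.act τ θ) y / (θ / H566.act τ θ) y := by
  have e1 : (MonoidAlgebra.of ℤ _ (c : S ⧸ V) - 1) * (1 - MonoidAlgebra.of ℤ _ (τ : S ⧸ V)) =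
      MonoidAlgebra.of ℤ _ (c : S ⧸ V) - MonoidAlgebra.of ℤ _ ((c * τ : S) : S ⧸ V) -
        MonoidAlgebra.of ℤ _ ((1 : S) : S ⧸ V) + MonoidAlgebra.of ℤ _ (τ : S ⧸ V) := by
    rw [QuotientGroup.mk_mul, QuotientGroup.mk_one, map_mul, map_one]
    noncomm_ring
  have e2 : H566.act c (θ / H566.act τ θ) = H566.act c θ / H566.act c (H566.act τ θ) := rfl
  apply Additive.ofMul.injective
  rw [e1, ← H566.actHom_apply, map_add, map_sub, map_sub, H566.actHom_of, H566.actHom_of,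
    H566.actHom_of, H566.actHom_of, H566.act_one, H566.act_mul, e2,
    MonoidHom.div_apply, MonoidHom.div_apply, ofMul_div, ofMul_div, ofMul_div]
  abel

end Act

section Comb

variable {p : ℕ} [hp : Fact p.Prime]

theorem e_pow_eq_one (e : Multiplicative ℤ_[p] →* ℤ_[p]ˣ) (he : Function.Injective e)
    (x : ℤ_[p]) {m : ℕ} (hm : 0 < m) (h : e (Multiplicative.ofAdd x) ^ m = 1) : x = 0 := by
  rw [← map_pow] at h
  have h1 : Multiplicative.ofAdd x ^ m = 1 := he (by rw [h, map_one])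
  have h2 : m • x = 0 := h1
  rw [nsmul_eq_mul] at h2
  rcases mul_eq_zero.1 h2 with h3 | h3
  · exact absurd (by exact_mod_cast h3) hm.ne'
  · exact h3

/-- The combination of two characters in different eigenspaces. -/
theorem comb {S : Type*} [Group S] {V : Subgroup S} [hV : V.Normal] (c τ : S)
    (hcτ : ((c * τ : S) : S ⧸ V) = ((τ * c : S) : S ⧸ V)) (θ₁ θ₂ : V →* ℤ_[p]ˣ)
    (h1 : H566.act τ θ₁ = θ₁) (h2 : H566.act τ θ₂ = θ₂⁻¹)
    (hi1 : ¬ ∃ m : ℕ, 0 < m ∧ ∀ y : V, (H566.act c θ₁ y / θ₁ y) ^ m = 1)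
    (hi2 : ¬ ∃ m : ℕ, 0 < m ∧ ∀ y : V, (H566.act c θ₂ y / θ₂ y) ^ m = 1)
    (L : ℤ_[p]ˣ →* Multiplicative ℤ_[p]) {N : ℕ} (hN : 0 < N) (hL : ∀ u, L u = 1 → u ^ N = 1)
    (e : Multiplicative ℤ_[p] →* ℤ_[p]ˣ) (he : Function.Injective e) (φ : V) :
    ∃ (a b : ℤ_[p]) (θ : V →* ℤ_[p]ˣ), (∀ y, θ y = e (Multiplicative.ofAdd
      (a * Multiplicative.toAdd (L (θ₁ y)) + b * Multiplicative.toAdd (L (θ₂ y))))) ∧
      θ φ = 1 ∧ ¬ ∃ m : ℕ, 0 < m ∧ ∀ y : V, (H566.act c θ y / θ y) ^ m = 1 := by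
  set ℓ₁ : V → ℤ_[p] := fun y => Multiplicative.toAdd (L (θ₁ y)) with hℓ₁
  set ℓ₂ : V → ℤ_[p] := fun y => Multiplicative.toAdd (L (θ₂ y)) with hℓ₂
  have hm1 : ∀ x y, ℓ₁ (x * y) = ℓ₁ x + ℓ₁ y := fun x y => by
    simp only [hℓ₁, map_mul, toAdd_mul]
  have hm2 : ∀ x y, ℓ₂ (x * y) = ℓ₂ x + ℓ₂ y := fun x y => by
    simp only [hℓ₂, map_mul, toAdd_mul]
  obtain ⟨a, b, hab, hne⟩ : ∃ a b : ℤ_[p], a * ℓ₁ φ + b * ℓ₂ φ = 0 ∧ ¬ (a = 0 ∧ b = 0) := by
    by_cases h : ℓ₁ φ = 0 ∧ ℓ₂ φ = 0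
    · refine ⟨1, 0, by rw [h.1, h.2]; ring, fun h' => one_ne_zero h'.1⟩
    · refine ⟨ℓ₂ φ, -ℓ₁ φ, by ring, fun h' => h ⟨neg_eq_zero.1 h'.2, h'.1⟩⟩
  let Λ : V →* Multiplicative ℤ_[p] :=
    { toFun := fun y => Multiplicative.ofAdd (a * ℓ₁ y + b * ℓ₂ y)
      map_one' := by
        have e1 : ℓ₁ 1 = 0 := by simpa using hm1 1 1
        have e2 : ℓ₂ 1 = 0 := by simpa using hm2 1 1
        rw [e1, e2, mul_zero, mul_zero, add_zero, ofAdd_zero]
      map_mul' := fun x y => by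
        rw [hm1, hm2, ← ofAdd_add]
        congr 1
        ring }
  have hΛ : ∀ y, e.comp Λ y = e (Multiplicative.ofAdd (a * ℓ₁ y + b * ℓ₂ y)) := fun y => rfl
  refine ⟨a, b, e.comp Λ, hΛ, ?_, ?_⟩
  · rw [hΛ, hab, ofAdd_zero, map_one]
  rintro ⟨m, hm, key⟩
  -- the conjugation by `g⁻¹`
  let cg : S → V → V := fun g y => MulAut.conjNormal g⁻¹ y
  have hact : ∀ (g : S) (ψ : V →* ℤ_[p]ˣ) (y : V), H566.act g ψ y = ψ (cg g y) := fun g ψ y => rfl
  have hD : ∀ y, a * (ℓ₁ (cg c y) - ℓ₁ y) + b * (ℓ₂ (cg c y) - ℓ₂ y) = 0 := by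
    intro y
    have h3 := key y
    rw [hact, hΛ, hΛ, ← map_div, ← ofAdd_sub] at h3
    have h4 := e_pow_eq_one e he _ hm h3
    rw [← h4]
    ring
  have ht1 : ∀ y, ℓ₁ (cg τ y) = ℓ₁ y := by
    intro y
    have h3 := DFunLike.congr_fun h1 y
    rw [hact] at h3
    simp only [hℓ₁, h3]
  have ht2 : ∀ y, ℓ₂ (cg τ y) = -ℓ₂ y := by
    intro y
    have h3 := DFunLike.congr_fun h2 y
    rw [hact, MonoidHom.inv_apply] at h3
    simp only [hℓ₂, h3, map_inv, toAdd_inv]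
  have htc1 : ∀ y, ℓ₁ (cg c (cg τ y)) = ℓ₁ (cg c y) := by
    intro y
    have h3 : H566.act (τ * c) θ₁ = H566.act c θ₁ := by
      rw [← H566.act_congr hcτ, H566.act_mul, h1]
    rw [H566.act_mul] at h3
    have h4 := DFunLike.congr_fun h3 y
    rw [hact, hact, hact] at h4
    simp only [hℓ₁, h4]
  have htc2 : ∀ y, ℓ₂ (cg c (cg τ y)) = -ℓ₂ (cg c y) := by
    intro y
    have h3 : H566.act (τ * c) θ₂ = (H566.act c θ₂)⁻¹ := by
      rw [← H566.act_congr hcτ, H566.act_mul, h2]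
      rfl
    rw [H566.act_mul] at h3
    have h4 := DFunLike.congr_fun h3 y
    rw [MonoidHom.inv_apply, hact, hact, hact] at h4
    simp only [hℓ₂, h4, map_inv, toAdd_inv]
  have h20 : (2 : ℤ_[p]) ≠ 0 := two_ne_zero
  have hA : ∀ y, a * (ℓ₁ (cg c y) - ℓ₁ y) = 0 := by
    intro y
    have h3 := hD y
    have h4 := hD (cg τ y)
    rw [ht1, ht2, htc1, htc2] at h4
    have h5 : 2 * (a * (ℓ₁ (cg c y) - ℓ₁ y)) = 0 := by linear_combination h3 + h4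
    exact (mul_eq_zero.1 h5).resolve_left h20
  have hB : ∀ y, b * (ℓ₂ (cg c y) - ℓ₂ y) = 0 := by
    intro y
    have h3 := hD y
    rw [hA y, zero_add] at h3
    exact h3
  have hfin : ∀ (ψ : V →* ℤ_[p]ˣ), (¬ ∃ m : ℕ, 0 < m ∧ ∀ y : V, (H566.act c ψ y / ψ y) ^ m = 1) →
      ∃ y, Multiplicative.toAdd (L (ψ (cg c y))) - Multiplicative.toAdd (L (ψ y)) ≠ 0 := by
    intro ψ hψ
    by_contra hcon
    push Not at hcon
    apply hψ
    refine ⟨N, hN, fun y => hL _ ?_⟩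
    rw [map_div, hact]
    exact Multiplicative.toAdd.injective (hcon y)
  apply hne
  constructor
  · obtain ⟨y, hy⟩ := hfin θ₁ hi1
    exact (mul_eq_zero.1 (hA y)).resolve_right hy
  · obtain ⟨y, hy⟩ := hfin θ₂ hi2
    exact (mul_eq_zero.1 (hB y)).resolve_right hy

end Comb

end Vale.Agent.P024.H558.ALL
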